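import Vale.Agent.P007.N.Tight
import Vale.Agent.P319.N.Main

open MeasureTheory NumberField Vale.Agent.P007

namespace Vale.Agent.Results.P007.A0_tight

theorem result (d : ℕ) (ε : ℝ) (hε : 0 < ε) :
    ∃ (C : Set (X (d + 1))) (D₀ : ℕ), IsCompact C ∧
      ∀ (K : Type) [Field K] [NumberField K] (O : Subring K) (σ : Fin (d + 1) ≃ (K →+* ℝ))
        (μ : Measure (X (d + 1))), IsTotallyReal K → Module.finrank ℚ K = d + 1 → IsOrder O →
        IsPacketMeasure (packet O σ) μ → D₀ ≤ orderDisc O → ENNReal.ofReal (1 - ε) ≤ μ C :=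
  fin_tight Vale.Agent.P319.xi Vale.Agent.P319.zf_all d ε hε

end Vale.Agent.Results.P007.A0_tight
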