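import Vale.Agent.P007.N.Final
import Vale.Agent.P007.E.Final
import Vale.Agent.P319.N.Main

open MeasureTheory Filter Topology NumberField Vale.Agent.P007

namespace Vale.Agent.Results.P007.A_full

theorem result (d : ℕ) (hd : 4 ≤ d + 1) :
    (∀ (K : Type) [Field K] [NumberField K] (O : Subring K) (σ : Fin (d + 1) ≃ (K →+* ℝ)),
      IsTotallyReal K → Module.finrank ℚ K = d + 1 → IsOrder O →
      ∃! μ : Measure (X (d + 1)), IsPacketMeasure (packet O σ) μ) ∧
    ((d + 1).Prime →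
      ∃ m : Measure (X (d + 1)), IsInvProb m ∧ (∀ m', IsInvProb m' → m' = m) ∧
        ∀ (K : ℕ → Type) [∀ i, Field (K i)] [∀ i, NumberField (K i)] (O : ∀ i, Subring (K i))
          (σ : ∀ i, Fin (d + 1) ≃ (K i →+* ℝ)) (μ : ℕ → Measure (X (d + 1))),
          (∀ i, IsTotallyReal (K i) ∧ Module.finrank ℚ (K i) = d + 1 ∧ IsOrder (O i) ∧
            IsPacketMeasure (packet (O i) (σ i)) (μ i)) →
          Tendsto (fun i => orderDisc (O i)) atTop atTop →
          (∀ f : CompactlySupportedContinuousMap (X (d + 1)) ℝ,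
            Tendsto (fun i => ∫ x, f x ∂μ i) atTop (𝓝 (∫ x, f x ∂m))) ∧
          ∀ ε : ℝ, 0 < ε → ∃ C : Set (X (d + 1)), IsCompact C ∧
            ∀ᶠ i in atTop, ENNReal.ofReal (1 - ε) ≤ μ i C) ∧
    (¬(d + 1).Prime →
      ∃ (K : ℕ → Type) (_ : ∀ i, Field (K i)) (_ : ∀ i, NumberField (K i))
        (O : ∀ i, Subring (K i)) (σ : ∀ i, Fin (d + 1) ≃ (K i →+* ℝ))
        (μ : ℕ → Measure (X (d + 1))),
        (∀ i, IsTotallyReal (K i) ∧ Module.finrank ℚ (K i) = d + 1 ∧ IsOrder (O i) ∧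
          IsPacketMeasure (packet (O i) (σ i)) (μ i)) ∧
        Tendsto (fun i => orderDisc (O i)) atTop atTop ∧
        ∃ f : CompactlySupportedContinuousMap (X (d + 1)) ℝ,
          (∀ m : Measure (X (d + 1)), IsInvProb m → 0 < ∫ x, f x ∂m) ∧
          ∀ i, ∫ x, f x ∂μ i = 0) :=
  ⟨fun _ _ _ _ σ _ hn hO => fin_unique σ hn hO,
    fun hp => fin_pos Vale.Agent.P319.xi Vale.Agent.P319.zf_all d (by omega)
      (rigid hp (by omega)) (uniq _), fin_neg d hd⟩

end Vale.Agent.Results.P007.A_full
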